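import Vale.Agent.P127.TV.MStepC
import Vale.Agent.P127.U.Mic.Colp2

/-!
# P127 / U / H881 : the concrete M-step, core

`mstepC_lat` : the M-step for exact positions together with the lattice lemma, square cells.
`core` : the same for lines `s ↦ (x1 + s y1, x2 + s y2)` read in the frames `(τ θ, ν θ)`.
-/

set_option autoImplicit false

namespace Vale.Agent.P127.U.H881

open Finset Vale.Agent.P127 Vale.Agent.P127.Stk Vale.Agent.P127.U.Pin Vale.Agent.P127.TV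

variable {Ω : Type} [Fintype Ω] {S U V Z : Type*}

/-- **M-STEP + LATTICE, exact positions** -/
theorem mstepC_lat (P : Law Ω) (D : Ω → U) (Θ : Ω → V) (W : Ω → S) (E : Ω → Z) (e : U → S → ℝ)
    (pi : Ω → Fin 2 → ℝ) (be : V → Ω → Fin 2 → ℝ) (s Gs : U → V → V → ℝ) (ρ : ℝ)
    (geo : Geo P D Θ W E e pi be (fun d θ θ₁ i => if i = 0 then s d θ θ₁ else
      s d θ θ₁ * Gs d θ θ₁) (fun _ _ _ _ => 0) (fun _ => ρ))
    (τ l L : ℝ) (R : ℕ) (hρ0 : 0 ≤ ρ) (hτ : 0 < τ) (hτ1 : τ ≤ 1) (hl : 1 ≤ l) (hlL : l ≤ L)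
    (hR : L ≤ R * τ ^ 2) (hρ : 10 * R * ρ ≤ 1) :
    P.ex (fun ω => (P.cond D (D ω)).ex (fun ω₂ => (P.cond D (D ω)).ex (fun ω₃ =>
      (P.cond D (D ω)).ex (fun ω₄ => (P.cond D (D ω)).ex (fun ω₅ =>
        chiL s Gs τ (D ω) (Θ ω) (Θ ω₂) (Θ ω₃) (e (D ω) (W ω₄)) (e (D ω) (W ω₅))))))) *
        (2 * Real.log (L / l) - Real.log 3168) -
      R * (1 + 2 * Real.log R) *
        (16 * Real.sqrt (mi P (fun ω => e (D ω) (W ω)) E (fun ω => (D ω, Θ ω))) +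
          128 * Real.sqrt (mi P Θ W D)) ≤
    hc P (fun ω => Lat.cell l (pi ω 0, pi ω 1))
      (fun ω => (Lat.cell L (pi ω 0, pi ω 1), (D ω, Θ ω))) := by
  classical
  have hL1 : 1 ≤ L := hl.trans hlL
  have hR0 : (0 : ℝ) < R := by
    by_contra hcon
    have : (R : ℝ) * τ ^ 2 ≤ 0 := mul_nonpos_of_nonpos_of_nonneg (not_lt.1 hcon) (by positivity)
    linarith
  have hR1 : (1 : ℝ) ≤ R := by
    have : 0 < R := by exact_mod_cast hR0
    exact_mod_cast this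
  have hlogR : 0 ≤ Real.log R := Real.log_nonneg hR1
  refine mstepC P D Θ W E e pi be _ _ _ geo (chiL s Gs τ) ?_ ?_
    (fun _ _ x => Lat.cell l (x 0, x 1)) (fun _ _ x => Lat.cell L (x 0, x 1))
    (2 * Real.log (L / l) - Real.log 3168) (R * (1 + 2 * Real.log R)) (by positivity) ?_
  · intro d θ θ₂ θ₃ x x'
    unfold chiL
    split_ifs
    · exact zero_le_one
    · exact le_rfl
  · intro d θ θ₂ θ₃ x x'
    unfold chiL
    split_ifs
    · exact le_rfl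
    · exact zero_le_one
  · intro d θ θ₂ θ₃ x x' hχ Q X ε₁ ε₂ t₁ t₂
    unfold chiL at hχ
    split_ifs at hχ with hc
    swap
    · exact absurd hχ (lt_irrefl _)
    obtain ⟨c1, c2, c3, c4, c5, c6, c7⟩ := hc
    have hRτ : (R : ℝ) * τ ^ 2 ≤ R * τ := by
      refine mul_le_mul_of_nonneg_left ?_ hR0.le
      nlinarith
    have q1 : L ≤ R * |(x - x') * s d θ θ₂| := by
      have := mul_le_mul_of_nonneg_left c1 hR0.le
      linarith
    have q2 : L ≤ R * |(x - x') * s d θ θ₃| := by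
      have := mul_le_mul_of_nonneg_left c3 hR0.le
      linarith
    have q3 : ∀ y, τ ≤ |y| → L ≤ R * |y| * |Gs d θ θ₃ - Gs d θ θ₂| := by
      intro y hy
      refine hR.trans ?_
      rw [pow_two, mul_assoc]
      refine mul_le_mul_of_nonneg_left ?_ hR0.le
      exact mul_le_mul hy c5 hτ.le (abs_nonneg _)
    have hst : ∀ (y gg : ℝ) (ε : ℝ), Tr Q X (fun i => (x - x') * (if i = 0 then y else y * gg))
        (fun _ => 5 * ρ) ε →
        SubC Q Q (fun a b => Lat.Step ((x - x') * y) gg (5 * ρ) (X a 0, X a 1) (X b 0, X b 1)) ε := by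
      intro y gg ε ht
      refine SubC.mono ht (fun a b hab => ?_) le_rfl
      have k0 := hab 0
      have k1 := hab 1
      simp only [if_true, if_neg (one_ne_zero : (1 : Fin 2) ≠ 0)] at k0 k1
      constructor
      · dsimp only
        rw [show X b 0 - (X a 0 + (x - x') * y) = X b 0 - X a 0 - (x - x') * y by ring]
        exact k0
      · dsimp only
        rw [show X b 1 - (X a 1 + (x - x') * y * gg) = X b 1 - X a 1 - (x - x') * (y * gg) by ring]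
        exact k1
    have h1 := hst _ _ _ t₁
    have h2 := hst _ _ _ t₂
    have := Lat.lat_step Q (fun ω => (X ω 0, X ω 1)) ((x - x') * s d θ θ₂) ((x - x') * s d θ θ₃)
      (Gs d θ θ₂) (Gs d θ θ₃) l L (5 * ρ) ε₁ ε₂ R (hτ.trans_le c1) (hτ.trans_le c3) c2 c4
      (hτ.trans_le c5) c6 c7 hl hlL q1 q2 (q3 _ c1) (q3 _ c3) (by linarith) (by linarith)
      (SubC.eps_nonneg h1) (SubC.eps_nonneg h2) h1 h2
    refine le_trans (le_of_eq ?_) this
    ring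

/-! ### the lines in their frames -/

/-- first coordinate in the frame `(τ, ν)` -/
def rX (x1 y1 : Ω → ℝ) (τ : ℝ) (ω : Ω) : ℝ := x1 ω + τ * y1 ω

/-- normal component of the direction in the frame `(τ, ν)` -/
def rN (y1 y2 : Ω → ℝ) (ν : ℝ) (ω : Ω) : ℝ := y2 ω - ν * y1 ω

/-- normal coordinate in the frame `(τ, ν)` -/
def rF (x1 x2 y1 y2 : Ω → ℝ) (τ ν : ℝ) (ω : Ω) : ℝ :=
  x2 ω + τ * y2 ω - ν * (x1 ω + τ * y1 ω)

/-- the data of the concrete M-step: past `D` with frame `(τ0, ν0)`, late information `Θ` with frame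
`(τ Θ, ν Θ)`, window `W`, late cell `E`; `A = 2^a`, `R = 2^r`, `B = 2^b`, `δ = 2^-p` -/
structure Conf (P : Law Ω) (D : Ω → U) (Θ : Ω → V) (W : Ω → S) (E : Ω → Z) (e : U → S → ℝ)
    (x1 x2 y1 y2 τ0 ν0 : Ω → ℝ) (τ ν : V → ℝ) (A R B δ : ℝ) : Prop where
  hA : 1 ≤ A
  hR : 1 ≤ R
  hB : 1 ≤ B
  hδ : 0 < δ
  fr0 : ∀ a b, 0 < P.w a → 0 < P.w b → D a = D b → τ0 a = τ0 b ∧ ν0 a = ν0 b
  fr1 : ∀ a, 0 < P.w a → 0 ≤ A * (τ (Θ a) - τ0 a) ∧ A * (τ (Θ a) - τ0 a) ≤ 1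
  fr2 : ∀ a, 0 < P.w a → 0 ≤ R * (ν (Θ a) - ν0 a) ∧ R * (ν (Θ a) - ν0 a) ≤ 1
  w1 : ∀ a b, 0 < P.w a → 0 < P.w b → D a = D b → W a = W b → B * |y1 a - y1 b| ≤ δ
  w2 : ∀ a b, 0 < P.w a → 0 < P.w b → D a = D b → W a = W b →
    R * B * |rN y1 y2 (ν0 a) a - rN y1 y2 (ν0 a) b| ≤ δ
  w3 : ∀ a b, 0 < P.w a → 0 < P.w b → D a = D b → W a = W b →
    A * B * |rX x1 y1 (τ0 a) a - rX x1 y1 (τ0 a) b| ≤ δ
  w4 : ∀ a b, 0 < P.w a → 0 < P.w b → D a = D b → W a = W b →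
    A * R * B * |rF x1 x2 y1 y2 (τ0 a) (ν0 a) a - rF x1 x2 y1 y2 (τ0 a) (ν0 a) b| ≤ δ
  e2 : ∀ a b, 0 < P.w a → 0 < P.w b → D a = D b → Θ a = Θ b → E a = E b →
    R * B * |rN y1 y2 (ν (Θ a)) a - rN y1 y2 (ν (Θ a)) b| ≤ δ
  e3 : ∀ a b, 0 < P.w a → 0 < P.w b → D a = D b → Θ a = Θ b → E a = E b →
    A * B * |rX x1 y1 (τ (Θ a)) a - rX x1 y1 (τ (Θ a)) b| ≤ δ
  e4 : ∀ a b, 0 < P.w a → 0 < P.w b → D a = D b → Θ a = Θ b → E a = E b →
    A * R * B * |rF x1 x2 y1 y2 (τ (Θ a)) (ν (Θ a)) a -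
      rF x1 x2 y1 y2 (τ (Θ a)) (ν (Θ a)) b| ≤ δ
  ey : ∀ a, 0 < P.w a → |B * y1 a - e (D a) (W a)| ≤ δ

/-- the position in the late frame, in units -/
noncomputable def cpi (Θ : Ω → V) (x1 x2 y1 y2 : Ω → ℝ) (τ ν : V → ℝ) (A R B : ℝ) (ω : Ω) :
    Fin 2 → ℝ :=
  fun i => if i = 0 then A * B * rX x1 y1 (τ (Θ ω)) ω else
    A * R * B * rF x1 x2 y1 y2 (τ (Θ ω)) (ν (Θ ω)) ω

/-- the position in its own late frame, brought to the late frame of `θ` -/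
noncomputable def cbe (Θ : Ω → V) (x1 x2 y1 y2 : Ω → ℝ) (τ ν : V → ℝ) (A R B : ℝ) (θ : V)
    (ω : Ω) : Fin 2 → ℝ :=
  fun i => if i = 0 then A * B * rX x1 y1 (τ (Θ ω)) ω else
    A * R * B * (rF x1 x2 y1 y2 (τ (Θ ω)) (ν (Θ ω)) ω +
      (ν (Θ ω) - ν θ) * rX x1 y1 (τ (Θ ω)) ω - (τ (Θ ω) - τ θ) * rN y1 y2 (ν (Θ ω)) ω)

lemma mul_abs_le {x y δ : ℝ} (hx : |x| ≤ 1) (hy : |y| ≤ δ) : |x * y| ≤ δ := by
  rw [abs_mul]
  have h1 : 0 ≤ δ := (abs_nonneg y).trans hy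
  calc |x| * |y| ≤ 1 * δ := mul_le_mul hx hy (abs_nonneg _) zero_le_one
    _ = δ := one_mul δ

theorem Conf.geo {P : Law Ω} {D : Ω → U} {Θ : Ω → V} {W : Ω → S} {E : Ω → Z} {e : U → S → ℝ}
    {x1 x2 y1 y2 τ0 ν0 : Ω → ℝ} {τ ν : V → ℝ} {A R B δ : ℝ}
    (h : Conf P D Θ W E e x1 x2 y1 y2 τ0 ν0 τ ν A R B δ) :
    Geo P D Θ W E e (cpi Θ x1 x2 y1 y2 τ ν A R B) (cbe Θ x1 x2 y1 y2 τ ν A R B)
      (fun _ θ θ₁ i => if i = 0 then A * (τ θ₁ - τ θ) else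
        A * (τ θ₁ - τ θ) * (R * (ν θ₁ - ν θ))) (fun _ _ _ _ => 0) (fun _ => 6 * δ) := by
  have hA := h.hA
  have hR := h.hR
  have hB := h.hB
  have hδ := h.hδ
  have hA0 : 0 < A := by linarith
  have hR0 : 0 < R := by linarith
  have hB0 : 0 < B := by linarith
  have sep : ∀ a b, 0 < P.w a → 0 < P.w b → D a = D b →
      |A * (τ (Θ b) - τ (Θ a))| ≤ 1 ∧ |R * (ν (Θ b) - ν (Θ a))| ≤ 1 := by
    intro a b pa pb hD
    have f0 := h.fr0 a b pa pb hD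
    have f1 := h.fr1 a pa
    have f1' := h.fr1 b pb
    have f2 := h.fr2 a pa
    have f2' := h.fr2 b pb
    rw [← f0.1] at f1'
    rw [← f0.2] at f2'
    rw [abs_le, abs_le]
    refine ⟨⟨by linarith, by linarith⟩, by linarith, by linarith⟩
  have one : ∀ x : ℝ, 0 ≤ x → x ≤ 1 → |x| ≤ 1 := fun x h1 h2 => by
    rw [abs_of_nonneg h1]; exact h2
  refine ⟨?_, ?_, ?_⟩
  · intro a b pa pb hD hT hE i
    have k3 := h.e3 a b pa pb hD hT hE
    have k4 := h.e4 a b pa pb hD hT hE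
    unfold cpi
    rw [← hT]
    split_ifs
    · rw [← mul_sub, abs_mul, abs_of_pos (mul_pos hA0 hB0)]
      linarith
    · rw [← mul_sub, abs_mul, abs_of_pos (mul_pos (mul_pos hA0 hR0) hB0)]
      linarith
  · intro o a b po pa pb hDo hD hT hE i
    have k2 := h.e2 a b pa pb hD hT hE
    have k3 := h.e3 a b pa pb hD hT hE
    have k4 := h.e4 a b pa pb hD hT hE
    obtain ⟨s1, s2⟩ := sep o a po pa hDo
    unfold cbe
    rw [← hT]
    split_ifs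
    · rw [← mul_sub, abs_mul, abs_of_pos (mul_pos hA0 hB0)]
      linarith
    · have t1 : |R * (ν (Θ a) - ν (Θ o)) *
          (A * B * (rX x1 y1 (τ (Θ a)) a - rX x1 y1 (τ (Θ a)) b))| ≤ δ := by
        refine mul_abs_le s2 ?_
        rw [abs_mul, abs_of_pos (mul_pos hA0 hB0)]
        exact k3
      have t2 : |A * (τ (Θ a) - τ (Θ o)) *
          (R * B * (rN y1 y2 (ν (Θ a)) a - rN y1 y2 (ν (Θ a)) b))| ≤ δ := by
        refine mul_abs_le s1 ?_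
        rw [abs_mul, abs_of_pos (mul_pos hR0 hB0)]
        exact k2
      have t3 : |A * R * B * (rF x1 x2 y1 y2 (τ (Θ a)) (ν (Θ a)) a -
          rF x1 x2 y1 y2 (τ (Θ a)) (ν (Θ a)) b)| ≤ δ := by
        rw [abs_mul, abs_of_pos (mul_pos (mul_pos hA0 hR0) hB0)]
        exact k4
      rw [show A * R * B * (rF x1 x2 y1 y2 (τ (Θ a)) (ν (Θ a)) a +
            (ν (Θ a) - ν (Θ o)) * rX x1 y1 (τ (Θ a)) a -
            (τ (Θ a) - τ (Θ o)) * rN y1 y2 (ν (Θ a)) a) -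
          A * R * B * (rF x1 x2 y1 y2 (τ (Θ a)) (ν (Θ a)) b +
            (ν (Θ a) - ν (Θ o)) * rX x1 y1 (τ (Θ a)) b -
            (τ (Θ a) - τ (Θ o)) * rN y1 y2 (ν (Θ a)) b) =
          A * R * B * (rF x1 x2 y1 y2 (τ (Θ a)) (ν (Θ a)) a -
            rF x1 x2 y1 y2 (τ (Θ a)) (ν (Θ a)) b) +
          R * (ν (Θ a) - ν (Θ o)) *
            (A * B * (rX x1 y1 (τ (Θ a)) a - rX x1 y1 (τ (Θ a)) b)) -
          A * (τ (Θ a) - τ (Θ o)) *
            (R * B * (rN y1 y2 (ν (Θ a)) a - rN y1 y2 (ν (Θ a)) b)) by ring]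
      rw [abs_le] at t1 t2 t3 ⊢
      constructor <;> linarith [t1.1, t1.2, t2.1, t2.2, t3.1, t3.2]
  · intro a b pa pb hD hW i
    have k1 := h.w1 a b pa pb hD hW
    have k2 := h.w2 a b pa pb hD hW
    have k3 := h.w3 a b pa pb hD hW
    have k4 := h.w4 a b pa pb hD hW
    have ke := h.ey a pa
    obtain ⟨s1, s2⟩ := sep a b pa pb hD
    have f0 := h.fr0 a b pa pb hD
    have f1 := h.fr1 a pa
    have f1' := h.fr1 b pb
    have f2 := h.fr2 a pa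
    have f2' := h.fr2 b pb
    rw [← f0.1] at f1'
    rw [← f0.2] at f2'
    set T := τ (Θ a) with hTa
    set T' := τ (Θ b) with hTb
    set N := ν (Θ a) with hNa
    set N' := ν (Θ b) with hNb
    set t0 := τ0 a with ht0
    set n0 := ν0 a with hn0
    have g1 : |B * (y1 a - y1 b)| ≤ δ := by rw [abs_mul, abs_of_pos hB0]; exact k1
    have g2 : |R * B * (rN y1 y2 n0 a - rN y1 y2 n0 b)| ≤ δ := by
      rw [abs_mul, abs_of_pos (mul_pos hR0 hB0)]; exact k2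
    have g3 : |A * B * (rX x1 y1 t0 a - rX x1 y1 t0 b)| ≤ δ := by
      rw [abs_mul, abs_of_pos (mul_pos hA0 hB0)]; exact k3
    have g4 : |A * R * B * (rF x1 x2 y1 y2 t0 n0 a - rF x1 x2 y1 y2 t0 n0 b)| ≤ δ := by
      rw [abs_mul, abs_of_pos (mul_pos (mul_pos hA0 hR0) hB0)]; exact k4
    unfold cpi cbe
    split_ifs
    · have u1 := mul_abs_le (one _ f1'.1 f1'.2) g1
      have u2 := mul_abs_le s1 ke
      rw [show A * B * rX x1 y1 T' b - A * B * rX x1 y1 T a - (e (D a) (W a) * (A * (T' - T)) + 0) =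
        -(A * B * (rX x1 y1 t0 a - rX x1 y1 t0 b)) - A * (T' - t0) * (B * (y1 a - y1 b)) +
          A * (T' - T) * (B * y1 a - e (D a) (W a)) by unfold rX; ring]
      rw [abs_le] at g3 u1 u2 ⊢
      constructor <;> linarith [g3.1, g3.2, u1.1, u1.2, u2.1, u2.2]
    · have u1 := mul_abs_le (one _ f1.1 f1.2) g2
      have u2 := mul_abs_le (one _ f2.1 f2.2) g3
      have u3 := mul_abs_le (mul_abs_le (one _ f1.1 f1.2) (one _ f2.1 f2.2)) g1
      have u4 := mul_abs_le (mul_abs_le s1 s2) g1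
      have u5 := mul_abs_le (mul_abs_le s1 s2) ke
      rw [show A * R * B * (rF x1 x2 y1 y2 T' N' b + (N' - N) * rX x1 y1 T' b -
            (T' - T) * rN y1 y2 N' b) - A * R * B * rF x1 x2 y1 y2 T N a -
          (e (D a) (W a) * (A * (T' - T) * (R * (N' - N))) + 0) =
          -(A * R * B * (rF x1 x2 y1 y2 t0 n0 a - rF x1 x2 y1 y2 t0 n0 b)) -
          A * (T - t0) * (R * B * (rN y1 y2 n0 a - rN y1 y2 n0 b)) +
          R * (N - n0) * (A * B * (rX x1 y1 t0 a - rX x1 y1 t0 b)) +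
          A * (T - t0) * (R * (N - n0)) * (B * (y1 a - y1 b)) -
          A * (T' - T) * (R * (N' - N)) * (B * (y1 a - y1 b)) +
          A * (T' - T) * (R * (N' - N)) * (B * y1 a - e (D a) (W a)) by
        unfold rX rF rN; ring]
      rw [abs_le] at g4 u1 u2 u3 u4 u5 ⊢
      constructor <;> linarith [g4.1, g4.2, u1.1, u1.2, u2.1, u2.2, u3.1, u3.2, u4.1, u4.2, u5.1,
        u5.2]

end Vale.Agent.P127.U.H881
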