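import Vale.Agent.P127.U.H881.CoreC

/-!
# P127 / U / H881 : the concrete M-step, numbers

`core` : `2 m log 2 - err ≤ H(fine | coarse, D, Θ)` with the explicit error.
-/

set_option autoImplicit false

namespace Vale.Agent.P127.U.H881

open Finset Vale.Agent.P127 Vale.Agent.P127.Stk Vale.Agent.P127.U.Pin Vale.Agent.P127.TV
  Vale.Agent.P127.U.Mic

variable {Ω : Type} [Fintype Ω] {S U V Z : Type*}

lemma log2_lt : Real.log 2 < 0.6931471808 := Real.log_two_lt_d9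

lemma log2_pos : 0 < Real.log 2 := Real.log_pos one_lt_two

/-- `R (1 + 2 log R) 128 ≤ 2^(16 g)` for `R = 2^(m + 4 g)` -/
lemma num_N {m g : ℕ} (hm : m ≤ g) (hg : 1 ≤ g) :
    (((2 ^ (m + 4 * g) : ℕ) : ℝ) * (1 + 2 * Real.log ((2 ^ (m + 4 * g) : ℕ) : ℝ))) * 128 ≤
      2 ^ (16 * g) := by
  have h1 : Real.log ((2 ^ (m + 4 * g) : ℕ) : ℝ) = ((m + 4 * g : ℕ) : ℝ) * Real.log 2 := by
    push_cast
    rw [Real.log_pow]
    push_cast
    ring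
  have h2 : ((m + 4 * g : ℕ) : ℝ) ≤ 5 * g := by
    have : m + 4 * g ≤ 5 * g := by omega
    exact_mod_cast this
  have hgR : (0 : ℝ) ≤ g := Nat.cast_nonneg _
  have h3 : 1 + 2 * Real.log ((2 ^ (m + 4 * g) : ℕ) : ℝ) ≤ 8 ^ g := by
    rw [h1]
    have h4 : ((m + 4 * g : ℕ) : ℝ) * Real.log 2 ≤ 5 * g * 0.7 :=
      mul_le_mul h2 (by linarith [log2_lt]) log2_pos.le (by positivity)
    have h5 : 1 + (g : ℝ) * 7 ≤ (1 + 7) ^ g := one_add_mul_le_pow (by norm_num) g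
    norm_num at h5 h4 ⊢
    linarith
  have h6 : ((2 ^ (m + 4 * g) : ℕ) : ℝ) ≤ 2 ^ (5 * g) := by
    push_cast
    exact pow_le_pow_right₀ one_le_two (by omega)
  have h7 : (128 : ℝ) ≤ 2 ^ (8 * g) := by
    have : (128 : ℝ) = 2 ^ 7 := by norm_num
    rw [this]
    exact pow_le_pow_right₀ one_le_two (by omega)
  have h8 : (8 : ℝ) ^ g = 2 ^ (3 * g) := by
    rw [pow_mul]; norm_num
  rw [h8] at h3
  have h0 : 0 ≤ 1 + 2 * Real.log ((2 ^ (m + 4 * g) : ℕ) : ℝ) := by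
    rw [h1]
    have := log2_pos
    positivity
  calc (((2 ^ (m + 4 * g) : ℕ) : ℝ) * (1 + 2 * Real.log ((2 ^ (m + 4 * g) : ℕ) : ℝ))) * 128
      ≤ (2 ^ (5 * g) * 2 ^ (3 * g)) * 2 ^ (8 * g) := by
        refine mul_le_mul (mul_le_mul h6 h3 h0 (by positivity)) h7 (by norm_num) (by positivity)
    _ = 2 ^ (16 * g) := by
        rw [← pow_add, ← pow_add]
        congr 1
        ring

lemma log_3168 : Real.log 3168 ≤ 9 := by
  have h1 : Real.log 3168 ≤ Real.log ((2 : ℝ) ^ 12) :=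
    Real.log_le_log (by norm_num) (by norm_num)
  rw [Real.log_pow] at h1
  have := log2_lt
  push_cast at h1
  linarith

/-- **CORE** -/
theorem core {P : Law Ω} {D : Ω → U} {Θ : Ω → V} {W : Ω → S} {E : Ω → Z} {e : U → S → ℝ}
    {x1 x2 y1 y2 τ0 ν0 : Ω → ℝ} {τ ν : V → ℝ} {a r b m g p : ℕ}
    (h : Conf P D Θ W E e x1 x2 y1 y2 τ0 ν0 τ ν (2 ^ a) (2 ^ r) (2 ^ b) (1 / 2 ^ p))
    (hm : m ≤ g) (hg : 1 ≤ g) (hp : 16 * g ≤ p) (tt vv ee : Ω → ℤ)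
    (ct : ∀ o o', 0 < P.w o → 0 < P.w o' → D o = D o' → ¬ |tt o - tt o'| ≤ 1 →
      1 ≤ |(2 : ℝ) ^ a * (τ (Θ o') - τ (Θ o))| * 2 ^ g)
    (cv : ∀ o o', 0 < P.w o → 0 < P.w o' → D o = D o' → ¬ |vv o - vv o'| ≤ 1 →
      1 ≤ |(2 : ℝ) ^ r * (ν (Θ o') - ν (Θ o))| * 2 ^ g)
    (cy : ∀ o o', 0 < P.w o → 0 < P.w o' → D o = D o' → ¬ |ee o - ee o'| ≤ 1 →
      1 ≤ |e (D o) (W o) - e (D o') (W o')| * 2 ^ g)
    (cy' : ∀ o o', 0 < P.w o → 0 < P.w o' → D o = D o' →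
      |e (D o) (W o) - e (D o') (W o')| ≤ 1) :
    2 * m * Real.log 2 - (16 + 16 * m * (colp P tt D + colp P vv D + colp P ee D) +
      2 ^ (16 * g) * (Real.sqrt (mi P (fun ω => e (D ω) (W ω)) E (fun ω => (D ω, Θ ω))) +
        Real.sqrt (mi P Θ W D))) ≤
    hc P (fun ω => Lat.cell 1 (cpi Θ x1 x2 y1 y2 τ ν (2 ^ a) (2 ^ r) (2 ^ b) ω 0,
        cpi Θ x1 x2 y1 y2 τ ν (2 ^ a) (2 ^ r) (2 ^ b) ω 1))
      (fun ω => (Lat.cell (2 ^ m) (cpi Θ x1 x2 y1 y2 τ ν (2 ^ a) (2 ^ r) (2 ^ b) ω 0,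
        cpi Θ x1 x2 y1 y2 τ ν (2 ^ a) (2 ^ r) (2 ^ b) ω 1), (D ω, Θ ω))) := by
  classical
  set s : U → V → V → ℝ := fun _ θ θ₁ => 2 ^ a * (τ θ₁ - τ θ) with hs
  set Gs : U → V → V → ℝ := fun _ θ θ₁ => 2 ^ r * (ν θ₁ - ν θ) with hGs
  set RR : ℕ := 2 ^ (m + 4 * g) with hRR
  set tz : ℝ := (1 / 2) ^ (2 * g) with htz
  have hL := mstepC_lat P D Θ W E e (cpi Θ x1 x2 y1 y2 τ ν (2 ^ a) (2 ^ r) (2 ^ b))
    (cbe Θ x1 x2 y1 y2 τ ν (2 ^ a) (2 ^ r) (2 ^ b)) s Gs (6 * (1 / 2 ^ p)) h.geo tz 1 (2 ^ m)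
    RR (by positivity) (by positivity) (pow_le_one₀ (by norm_num) (by norm_num)) le_rfl
    (one_le_pow₀ one_le_two) (by
      rw [hRR, htz, ← pow_mul]
      push_cast
      rw [pow_add, show 2 * g * 2 = 4 * g by ring, mul_assoc, ← mul_pow]
      norm_num) (by
      rw [hRR]
      push_cast
      have h1 : (2 : ℝ) ^ (m + 4 * g) * 64 ≤ 2 ^ p := by
        rw [show (64 : ℝ) = 2 ^ 6 by norm_num, ← pow_add]
        exact pow_le_pow_right₀ one_le_two (by omega)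
      have h2 : (0 : ℝ) < 2 ^ p := by positivity
      rw [show 10 * (2 : ℝ) ^ (m + 4 * g) * (6 * (1 / 2 ^ p)) =
        (60 * 2 ^ (m + 4 * g)) / 2 ^ p by ring]
      rw [div_le_one h2]
      have h3 : (0 : ℝ) < 2 ^ (m + 4 * g) := by positivity
      linarith)
  -- the weight
  have hsep : ∀ o o', 0 < P.w o → 0 < P.w o' → D o = D o' →
      |s (D o) (Θ o) (Θ o')| ≤ 1 ∧ |Gs (D o) (Θ o) (Θ o')| ≤ 1 := by
    intro o o' po po' hD
    have f0 := h.fr0 o o' po po' hD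
    have f1 := h.fr1 o po
    have f1' := h.fr1 o' po'
    have f2 := h.fr2 o po
    have f2' := h.fr2 o' po'
    rw [← f0.1] at f1'
    rw [← f0.2] at f2'
    simp only [hs, hGs]
    rw [abs_le, abs_le]
    refine ⟨⟨by linarith, by linarith⟩, by linarith, by linarith⟩
  have hchi : 1 - (2 * ((2 * ((1 : ℕ) : ℝ) + 1) * colp P tt D) +
      3 * ((2 * ((1 : ℕ) : ℝ) + 1) * colp P vv D) + (2 * ((1 : ℕ) : ℝ) + 1) * colp P ee D) ≤
      av5 P D (fun ω ω₂ ω₃ ω₄ ω₅ => chiL s Gs tz (D ω) (Θ ω) (Θ ω₂) (Θ ω₃)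
        (e (D ω) (W ω₄)) (e (D ω) (W ω₅))) := by
    refine nondeg P D tt vv ee 1 1 1 _ ?_ ?_
    · intro ω ω₂ ω₃ ω₄ ω₅ p1 p2 p3 p4 p5 d2 d3 d4 d5 n1 n2 n3 n4 n5 n6
      rw [Nat.cast_one] at n1 n2 n3 n4 n5 n6
      have c1 := ct ω ω₂ p1 p2 d2.symm n1
      have c2 := ct ω ω₃ p1 p3 d3.symm n2
      have c3 := cv ω₂ ω₃ p2 p3 (d2.trans d3.symm) n5
      have c4 := cy ω₄ ω₅ p4 p5 (d4.trans d5.symm) n6
      have c5 := cy' ω₄ ω₅ p4 p5 (d4.trans d5.symm)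
      have g1 := hsep ω ω₂ p1 p2 d2.symm
      have g2 := hsep ω ω₃ p1 p3 d3.symm
      rw [d4, d5] at c4 c5
      have hg2 : (0 : ℝ) < 2 ^ g := by positivity
      have htz2 : tz * (2 ^ g * 2 ^ g) = 1 := by
        rw [htz, ← pow_add, ← two_mul, ← mul_pow]
        norm_num
      have htz1 : tz * 2 ^ g ≤ 1 := by
        have h1 : (1 : ℝ) ≤ 2 ^ g := one_le_pow₀ one_le_two
        have h2 : 0 < tz := by positivity
        have h3 : tz * (2 ^ g * 1) ≤ tz * (2 ^ g * 2 ^ g) := by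
          refine mul_le_mul_of_nonneg_left ?_ h2.le
          exact mul_le_mul_of_nonneg_left h1 hg2.le
        linarith
      have prod : ∀ x y : ℝ, 1 ≤ |x| * 2 ^ g → 1 ≤ |y| * 2 ^ g → tz ≤ |x * y| := by
        intro x y hx hy
        have h1 : 1 * 1 ≤ (|x| * 2 ^ g) * (|y| * 2 ^ g) :=
          mul_le_mul hx hy zero_le_one (by positivity)
        have h2 : tz * (1 * 1) ≤ tz * ((|x| * 2 ^ g) * (|y| * 2 ^ g)) :=
          mul_le_mul_of_nonneg_left h1 (by positivity)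
        rw [abs_mul]
        have h3 : tz * ((|x| * 2 ^ g) * (|y| * 2 ^ g)) = |x| * |y| * (tz * (2 ^ g * 2 ^ g)) := by
          ring
        rw [h3, htz2] at h2
        linarith
      have sm : ∀ x y : ℝ, |x| ≤ 1 → |y| ≤ 1 → |x * y| ≤ 1 := by
        intro x y hx hy
        rw [abs_mul]
        exact mul_le_one₀ hx (abs_nonneg _) hy
      have hcond : tz ≤ |(e (D ω) (W ω₄) - e (D ω) (W ω₅)) * s (D ω) (Θ ω) (Θ ω₂)| ∧
          |(e (D ω) (W ω₄) - e (D ω) (W ω₅)) * s (D ω) (Θ ω) (Θ ω₂)| ≤ 1 ∧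
          tz ≤ |(e (D ω) (W ω₄) - e (D ω) (W ω₅)) * s (D ω) (Θ ω) (Θ ω₃)| ∧
          |(e (D ω) (W ω₄) - e (D ω) (W ω₅)) * s (D ω) (Θ ω) (Θ ω₃)| ≤ 1 ∧
          tz ≤ |Gs (D ω) (Θ ω) (Θ ω₃) - Gs (D ω) (Θ ω) (Θ ω₂)| ∧
          |Gs (D ω) (Θ ω) (Θ ω₂)| ≤ 1 ∧ |Gs (D ω) (Θ ω) (Θ ω₃)| ≤ 1 := by
        refine ⟨prod _ _ c4 c1, sm _ _ c5 g1.1, prod _ _ c4 c2, sm _ _ c5 g2.1, ?_, g1.2, g2.2⟩
        have h1 : Gs (D ω) (Θ ω) (Θ ω₃) - Gs (D ω) (Θ ω) (Θ ω₂) =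
            2 ^ r * (ν (Θ ω₃) - ν (Θ ω₂)) := by
          simp only [hGs]; ring
        rw [h1]
        have h2 : tz * 1 ≤ tz * (|(2 : ℝ) ^ r * (ν (Θ ω₃) - ν (Θ ω₂))| * 2 ^ g) :=
          mul_le_mul_of_nonneg_left c3 (by positivity)
        have h3 : |(2 : ℝ) ^ r * (ν (Θ ω₃) - ν (Θ ω₂))| * (tz * 2 ^ g) ≤
            |(2 : ℝ) ^ r * (ν (Θ ω₃) - ν (Θ ω₂))| * 1 :=
          mul_le_mul_of_nonneg_left htz1 (abs_nonneg _)
        linarith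
      show 1 ≤ chiL s Gs tz (D ω) (Θ ω) (Θ ω₂) (Θ ω₃) (e (D ω) (W ω₄)) (e (D ω) (W ω₅))
      unfold chiL
      rw [if_pos hcond]
    · intro ω ω₂ ω₃ ω₄ ω₅
      unfold chiL
      split_ifs
      · exact zero_le_one
      · exact le_rfl
  set av : ℝ := av5 P D (fun ω ω₂ ω₃ ω₄ ω₅ => chiL s Gs tz (D ω) (Θ ω) (Θ ω₂) (Θ ω₃)
        (e (D ω) (W ω₄)) (e (D ω) (W ω₅))) with hav
  set H : ℝ := hc P (fun ω => Lat.cell 1 (cpi Θ x1 x2 y1 y2 τ ν (2 ^ a) (2 ^ r) (2 ^ b) ω 0,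
        cpi Θ x1 x2 y1 y2 τ ν (2 ^ a) (2 ^ r) (2 ^ b) ω 1))
      (fun ω => (Lat.cell (2 ^ m) (cpi Θ x1 x2 y1 y2 τ ν (2 ^ a) (2 ^ r) (2 ^ b) ω 0,
        cpi Θ x1 x2 y1 y2 τ ν (2 ^ a) (2 ^ r) (2 ^ b) ω 1), (D ω, Θ ω))) with hH
  set i1 : ℝ := Real.sqrt (mi P (fun ω => e (D ω) (W ω)) E (fun ω => (D ω, Θ ω))) with hi1
  set i2 : ℝ := Real.sqrt (mi P Θ W D) with hi2
  have hi1' : 0 ≤ i1 := Real.sqrt_nonneg _
  have hi2' : 0 ≤ i2 := Real.sqrt_nonneg _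
  have hH0 : 0 ≤ H := hc_nonneg _ _ _
  have hL' : av * (2 * Real.log (2 ^ m / 1) - Real.log 3168) -
      RR * (1 + 2 * Real.log RR) * (16 * i1 + 128 * i2) ≤ H := hL
  have hlog : Real.log ((2 : ℝ) ^ m / 1) = m * Real.log 2 := by
    rw [div_one, Real.log_pow]
  rw [hlog] at hL'
  have hc0 : 0 ≤ colp P tt D := colp_nonneg P tt D
  have hc1 : 0 ≤ colp P vv D := colp_nonneg P vv D
  have hc2 : 0 ≤ colp P ee D := colp_nonneg P ee D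
  set κ : ℝ := colp P tt D + colp P vv D + colp P ee D with hκ
  have hκ0 : 0 ≤ κ := by positivity
  have hchi' : 1 - 9 * κ ≤ av := by
    rw [Nat.cast_one] at hchi
    rw [hκ]
    linarith
  have h3168 := log_3168
  have h3168' : 0 ≤ Real.log 3168 := Real.log_nonneg (by norm_num)
  have hmR : (0 : ℝ) ≤ m := Nat.cast_nonneg _
  have hl2 := log2_lt
  have hl2' := log2_pos
  -- the error terms
  have hN0 : (0 : ℝ) ≤ RR * (1 + 2 * Real.log RR) := by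
    have h1 : (1 : ℝ) ≤ RR := by
      rw [hRR]
      exact_mod_cast Nat.one_le_two_pow
    have h2 := Real.log_nonneg h1
    positivity
  have hN : RR * (1 + 2 * Real.log RR) * (16 * i1 + 128 * i2) ≤ 2 ^ (16 * g) * (i1 + i2) := by
    have h1 := num_N hm hg
    rw [← hRR] at h1
    have h2 : RR * (1 + 2 * Real.log RR) * (16 * i1 + 128 * i2) ≤
        RR * (1 + 2 * Real.log RR) * (128 * (i1 + i2)) :=
      mul_le_mul_of_nonneg_left (by linarith) hN0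
    have h3 : RR * (1 + 2 * Real.log RR) * 128 * (i1 + i2) ≤ 2 ^ (16 * g) * (i1 + i2) :=
      mul_le_mul_of_nonneg_right h1 (by linarith)
    linarith
  have hml : 2 * (m : ℝ) * Real.log 2 ≤ 2 * m * 0.7 := by
    refine mul_le_mul_of_nonneg_left ?_ (by positivity)
    linarith
  by_cases hΦ : 0 ≤ 2 * (m * Real.log 2) - Real.log 3168
  · have h1 : (1 - 9 * κ) * (2 * (m * Real.log 2) - Real.log 3168) ≤
        av * (2 * (m * Real.log 2) - Real.log 3168) := mul_le_mul_of_nonneg_right hchi' hΦ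
    have h2 : 9 * κ * (2 * (m * Real.log 2) - Real.log 3168) ≤ 16 * m * κ := by
      have h3 : 9 * κ * (2 * (m * Real.log 2) - Real.log 3168) ≤ 9 * κ * (2 * m * 0.7) := by
        refine mul_le_mul_of_nonneg_left ?_ (by positivity)
        linarith
      have h4 : 0 ≤ m * κ := by positivity
      linarith
    linarith
  · have h1 : 0 ≤ 16 * m * κ := by positivity
    have h2 : 0 ≤ 2 ^ (16 * g) * (i1 + i2) := by positivity
    linarith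

end Vale.Agent.P127.U.H881
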