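import Vale.Agent.P127.U.H881.CoreD
import Vale.Agent.P127.U.CellD

/-!
# P127 / U / H881 : the concrete M-step in digits

`core_dig` : the past `D` knows `a` digits of `t`, `r` digits of `v`, `b` digits of `y1`; `Θ` knows `a'`
digits of `t`, `r'` digits of `v`; the window `W` and the late cell `E` know the digits of the normal
direction and of the position in the early and in the late frame. Conclusion for the digits of the
position in the late frame, levels `(a + b, a + r + b)` given `(a + b - m, a + r + b - m)`.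
-/

set_option autoImplicit false

namespace Vale.Agent.P127.U.H881

open Finset Vale.Agent.P127 Vale.Agent.P127.Stk Vale.Agent.P127.U.Pin Vale.Agent.P127.TV
  Vale.Agent.P127.U.Mic Vale.Agent.P127.U.CellD

variable {Ω : Type} [Fintype Ω] {S U V Z : Type*}

/-- equal digits, close numbers -/
lemma near_fl1 {n k p : ℕ} (h : k + p ≤ n) {x y : ℝ} (e : fl1 n x = fl1 n y) :
    (2 : ℝ) ^ k * |x - y| ≤ 1 / 2 ^ p := by
  have e1 := CellD.fl1_fl1 h e
  have h1 := Int.abs_sub_lt_one_of_floor_eq_floor (show ⌊(2 : ℝ) ^ (k + p) * x⌋ =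
    ⌊(2 : ℝ) ^ (k + p) * y⌋ from e1)
  rw [← mul_sub, abs_mul, abs_of_pos (by positivity : (0 : ℝ) < 2 ^ (k + p))] at h1
  have h2 : (0 : ℝ) < 2 ^ p := by positivity
  rw [le_div_iff₀ h2]
  rw [pow_add] at h1
  nlinarith

/-- the fine digits are far apart if the coarser ones are not neighbours -/
lemma far_rd {a g a' : ℕ} (h : a + g ≤ a') {x y : ℝ}
    (e : ¬ |fl1 (a + g) x - fl1 (a + g) y| ≤ 1) :
    1 ≤ |(2 : ℝ) ^ a * (rd a' y - rd a' x)| * 2 ^ g := by
  have hx1 := rd_mono h x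
  have hy1 := rd_mono h y
  have hx2 := rd_le a' x
  have hy2 := rd_le a' y
  have hp : (0 : ℝ) < 2 ^ (a + g) := by positivity
  have fx : (fl1 (a + g) x : ℝ) ≤ 2 ^ (a + g) * rd a' x := by
    have : (fl1 (a + g) x : ℝ) = 2 ^ (a + g) * rd (a + g) x := by
      unfold rd; field_simp
    rw [this]
    exact mul_le_mul_of_nonneg_left hx1 hp.le
  have fy : (fl1 (a + g) y : ℝ) ≤ 2 ^ (a + g) * rd a' y := by
    have : (fl1 (a + g) y : ℝ) = 2 ^ (a + g) * rd (a + g) y := by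
      unfold rd; field_simp
    rw [this]
    exact mul_le_mul_of_nonneg_left hy1 hp.le
  have gx : 2 ^ (a + g) * rd a' x < (fl1 (a + g) x : ℝ) + 1 :=
    (mul_le_mul_of_nonneg_left hx2 hp.le).trans_lt (Int.lt_floor_add_one _)
  have gy : 2 ^ (a + g) * rd a' y < (fl1 (a + g) y : ℝ) + 1 :=
    (mul_le_mul_of_nonneg_left hy2 hp.le).trans_lt (Int.lt_floor_add_one _)
  have h1 : |(2 : ℝ) ^ a * (rd a' y - rd a' x)| * 2 ^ g =
      |2 ^ (a + g) * rd a' y - 2 ^ (a + g) * rd a' x| := by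
    rw [← abs_of_pos (show (0 : ℝ) < 2 ^ g by positivity), ← abs_mul]
    congr 1
    rw [pow_add]
    ring
  rw [h1]
  rw [not_le, lt_abs] at e
  rcases e with e | e
  · have e' : (fl1 (a + g) x : ℝ) - fl1 (a + g) y ≥ 2 := by
      have : (2 : ℤ) ≤ fl1 (a + g) x - fl1 (a + g) y := by omega
      exact_mod_cast this
    rw [le_abs]
    right
    linarith
  · have e' : (fl1 (a + g) y : ℝ) - fl1 (a + g) x ≥ 2 := by
      have : (2 : ℤ) ≤ fl1 (a + g) y - fl1 (a + g) x := by omega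
      exact_mod_cast this
    rw [le_abs]
    left
    linarith

/-- the same for the digits of `y1` -/
lemma far_fl1 {b g p : ℕ} (h : g ≤ p) {x y : ℝ} (e : ¬ |fl1 (b + g) x - fl1 (b + g) y| ≤ 1) :
    1 ≤ |(fl1 (b + p) x : ℝ) / 2 ^ p - (fl1 (b + p) y : ℝ) / 2 ^ p| * 2 ^ g := by
  have h1 := far_rd (a := b) (g := g) (a' := b + p) (by omega) e
  rw [abs_sub_comm]
  have h2 : (fl1 (b + p) y : ℝ) / 2 ^ p - (fl1 (b + p) x : ℝ) / 2 ^ p =
      2 ^ b * (rd (b + p) y - rd (b + p) x) := by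
    unfold rd
    rw [pow_add]
    field_simp
  rw [h2]
  exact h1

lemma near_dig {b p : ℕ} {x y : ℝ} (e : fl1 b x = fl1 b y) :
    |(fl1 (b + p) x : ℝ) / 2 ^ p - (fl1 (b + p) y : ℝ) / 2 ^ p| ≤ 1 := by
  have hp : (0 : ℝ) < 2 ^ p := by positivity
  have key : ∀ z : ℝ, (fl1 b z : ℝ) ≤ (fl1 (b + p) z : ℝ) / 2 ^ p ∧
      (fl1 (b + p) z : ℝ) / 2 ^ p ≤ (fl1 b z : ℝ) + 1 := by
    intro z
    have h1 := rd_mono (Nat.le_add_right b p) z
    have h2 := rd_le (b + p) z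
    have h3 : (fl1 (b + p) z : ℝ) / 2 ^ p = 2 ^ b * rd (b + p) z := by
      unfold rd
      rw [pow_add]
      field_simp
    have h4 : (fl1 b z : ℝ) = 2 ^ b * rd b z := by
      unfold rd; field_simp
    constructor
    · rw [h3, h4]
      exact mul_le_mul_of_nonneg_left h1 (by positivity)
    · rw [h3]
      have h5 : (2 : ℝ) ^ b * rd (b + p) z ≤ 2 ^ b * z :=
        mul_le_mul_of_nonneg_left h2 (by positivity)
      exact h5.trans (Int.lt_floor_add_one _).le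
  have kx := key x
  have ky := key y
  rw [← e] at ky
  rw [abs_le]
  constructor <;> linarith [kx.1, kx.2, ky.1, ky.2]

/-- **CORE in digits** -/
theorem core_dig (P : Law Ω) (D : Ω → U) (Θ : Ω → V) (W : Ω → S) (E : Ω → Z) (e : U → S → ℝ)
    (x1 x2 y1 y2 t v : Ω → ℝ) (τ ν : V → ℝ) (a r b m g p a' r' n1 n2 n3 n4 m2 m3 m4 : ℕ)
    (hτ : ∀ o, τ (Θ o) = rd a' (t o)) (hν : ∀ o, ν (Θ o) = rd r' (v o))
    (hD : ∀ o o', 0 < P.w o → 0 < P.w o' → D o = D o' →
      fl1 a (t o) = fl1 a (t o') ∧ fl1 r (v o) = fl1 r (v o') ∧ fl1 b (y1 o) = fl1 b (y1 o'))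
    (hW : ∀ o o', 0 < P.w o → 0 < P.w o' → D o = D o' → W o = W o' →
      fl1 n1 (y1 o) = fl1 n1 (y1 o') ∧
      fl1 n2 (rN y1 y2 (rd r (v o)) o) = fl1 n2 (rN y1 y2 (rd r (v o)) o') ∧
      fl1 n3 (rX x1 y1 (rd a (t o)) o) = fl1 n3 (rX x1 y1 (rd a (t o)) o') ∧
      fl1 n4 (rF x1 x2 y1 y2 (rd a (t o)) (rd r (v o)) o) =
        fl1 n4 (rF x1 x2 y1 y2 (rd a (t o)) (rd r (v o)) o'))
    (hE : ∀ o o', 0 < P.w o → 0 < P.w o' → D o = D o' → Θ o = Θ o' → E o = E o' →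
      fl1 m2 (rN y1 y2 (rd r' (v o)) o) = fl1 m2 (rN y1 y2 (rd r' (v o)) o') ∧
      fl1 m3 (rX x1 y1 (rd a' (t o)) o) = fl1 m3 (rX x1 y1 (rd a' (t o)) o') ∧
      fl1 m4 (rF x1 x2 y1 y2 (rd a' (t o)) (rd r' (v o)) o) =
        fl1 m4 (rF x1 x2 y1 y2 (rd a' (t o)) (rd r' (v o)) o'))
    (he : ∀ o, 0 < P.w o → e (D o) (W o) = (fl1 (b + p) (y1 o) : ℝ) / 2 ^ p)
    (hm : m ≤ g) (hg : 1 ≤ g) (hp : 16 * g ≤ p) (hb : m ≤ b)
    (ha' : a + g ≤ a') (hr' : r + g ≤ r')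
    (l1 : b + p ≤ n1) (l2 : r + b + p ≤ n2) (l3 : a + b + p ≤ n3) (l4 : a + r + b + p ≤ n4)
    (k2 : r + b + p ≤ m2) (k3 : a + b + p ≤ m3) (k4 : a + r + b + p ≤ m4) :
    2 * m * Real.log 2 - (16 + 16 * m * (colp P (fun o => fl1 (a + g) (t o)) D +
        colp P (fun o => fl1 (r + g) (v o)) D + colp P (fun o => fl1 (b + g) (y1 o)) D) +
      2 ^ (16 * g) * (Real.sqrt (mi P (fun ω => e (D ω) (W ω)) E (fun ω => (D ω, Θ ω))) +
        Real.sqrt (mi P Θ W D))) ≤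
    hc P (fun ω => (fl1 (a + b) (rX x1 y1 (rd a' (t ω)) ω),
        fl1 (a + r + b) (rF x1 x2 y1 y2 (rd a' (t ω)) (rd r' (v ω)) ω)))
      (fun ω => ((fl1 (a + b - m) (rX x1 y1 (rd a' (t ω)) ω),
        fl1 (a + r + b - m) (rF x1 x2 y1 y2 (rd a' (t ω)) (rd r' (v ω)) ω)), (D ω, Θ ω))) := by
  have haa : a ≤ a' := by omega
  have hrr : r ≤ r' := by omega
  have conf : Conf P D Θ W E e x1 x2 y1 y2 (fun o => rd a (t o)) (fun o => rd r (v o)) τ ν
      (2 ^ a) (2 ^ r) (2 ^ b) (1 / 2 ^ p) := by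
    refine ⟨one_le_pow₀ one_le_two, one_le_pow₀ one_le_two, one_le_pow₀ one_le_two,
      by positivity, ?_, ?_, ?_, ?_, ?_, ?_, ?_, ?_, ?_, ?_, ?_⟩
    · intro o o' q q' hDD
      obtain ⟨d1, d2, -⟩ := hD o o' q q' hDD
      unfold rd
      rw [d1, d2]
      exact ⟨rfl, rfl⟩
    · intro o _
      rw [hτ]
      have h1 := rd_mono haa (t o)
      have h2 := rd_le a' (t o)
      have h3 := lt_rd a (t o)
      have h4 := q2_mul_pow a
      have h5 : (0 : ℝ) < 2 ^ a := by positivity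
      constructor
      · exact mul_nonneg h5.le (by linarith)
      · have : (2 : ℝ) ^ a * (rd a' (t o) - rd a (t o)) ≤ 2 ^ a * q2 a :=
          mul_le_mul_of_nonneg_left (by linarith) h5.le
        linarith
    · intro o _
      rw [hν]
      have h1 := rd_mono hrr (v o)
      have h2 := rd_le r' (v o)
      have h3 := lt_rd r (v o)
      have h4 := q2_mul_pow r
      have h5 : (0 : ℝ) < 2 ^ r := by positivity
      constructor
      · exact mul_nonneg h5.le (by linarith)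
      · have : (2 : ℝ) ^ r * (rd r' (v o) - rd r (v o)) ≤ 2 ^ r * q2 r :=
          mul_le_mul_of_nonneg_left (by linarith) h5.le
        linarith
    · intro o o' q q' hDD hWW
      exact near_fl1 l1 (hW o o' q q' hDD hWW).1
    · intro o o' q q' hDD hWW
      rw [← pow_add]
      exact near_fl1 l2 (hW o o' q q' hDD hWW).2.1
    · intro o o' q q' hDD hWW
      rw [← pow_add]
      exact near_fl1 l3 (hW o o' q q' hDD hWW).2.2.1
    · intro o o' q q' hDD hWW
      rw [← pow_add, ← pow_add]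
      exact near_fl1 l4 (hW o o' q q' hDD hWW).2.2.2
    · intro o o' q q' hDD hTT hEE
      rw [← pow_add, hν]
      exact near_fl1 k2 (hE o o' q q' hDD hTT hEE).1
    · intro o o' q q' hDD hTT hEE
      rw [← pow_add, hτ]
      exact near_fl1 k3 (hE o o' q q' hDD hTT hEE).2.1
    · intro o o' q q' hDD hTT hEE
      rw [← pow_add, ← pow_add, hτ, hν]
      exact near_fl1 k4 (hE o o' q q' hDD hTT hEE).2.2
    · intro o q
      rw [he o q]
      have h1 := Int.floor_le ((2 : ℝ) ^ (b + p) * y1 o)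
      have h2 := Int.lt_floor_add_one ((2 : ℝ) ^ (b + p) * y1 o)
      have hp0 : (0 : ℝ) < 2 ^ p := by positivity
      have h3 : (2 : ℝ) ^ b * y1 o - (fl1 (b + p) (y1 o) : ℝ) / 2 ^ p =
          ((2 : ℝ) ^ (b + p) * y1 o - (fl1 (b + p) (y1 o) : ℝ)) / 2 ^ p := by
        rw [pow_add]
        field_simp
      rw [h3, abs_div, abs_of_pos hp0]
      refine div_le_div_of_nonneg_right ?_ hp0.le
      unfold fl1
      rw [abs_le]
      constructor <;> linarith
  have h := core (m := m) (g := g) conf hm hg hp (fun o => fl1 (a + g) (t o))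
    (fun o => fl1 (r + g) (v o)) (fun o => fl1 (b + g) (y1 o))
    (by
      intro o o' _ _ _ hn
      rw [hτ, hτ]
      exact far_rd ha' hn)
    (by
      intro o o' _ _ _ hn
      rw [hν, hν]
      exact far_rd hr' hn)
    (by
      intro o o' q q' _ hn
      rw [he o q, he o' q']
      exact far_fl1 (by omega) hn)
    (by
      intro o o' q q' hDD
      rw [he o q, he o' q']
      exact near_dig (hD o o' q q' hDD).2.2)
  refine h.trans (le_of_eq ?_)
  have c1 : ∀ ω, Lat.cell 1 (cpi Θ x1 x2 y1 y2 τ ν (2 ^ a) (2 ^ r) (2 ^ b) ω 0,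
        cpi Θ x1 x2 y1 y2 τ ν (2 ^ a) (2 ^ r) (2 ^ b) ω 1) =
      (fl1 (a + b) (rX x1 y1 (rd a' (t ω)) ω),
        fl1 (a + r + b) (rF x1 x2 y1 y2 (rd a' (t ω)) (rd r' (v ω)) ω)) := by
    intro ω
    unfold Lat.cell cpi fl1
    simp only [div_one, if_true, if_neg (one_ne_zero : (1 : Fin 2) ≠ 0)]
    rw [hτ, hν, ← pow_add, ← pow_add, ← pow_add]
  have c2 : ∀ ω, Lat.cell (2 ^ m) (cpi Θ x1 x2 y1 y2 τ ν (2 ^ a) (2 ^ r) (2 ^ b) ω 0,
        cpi Θ x1 x2 y1 y2 τ ν (2 ^ a) (2 ^ r) (2 ^ b) ω 1) =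
      (fl1 (a + b - m) (rX x1 y1 (rd a' (t ω)) ω),
        fl1 (a + r + b - m) (rF x1 x2 y1 y2 (rd a' (t ω)) (rd r' (v ω)) ω)) := by
    intro ω
    have q1 : (2 : ℝ) ^ (a + b) = 2 ^ (a + b - m) * 2 ^ m := by
      rw [← pow_add, Nat.sub_add_cancel (by omega)]
    have q2 : (2 : ℝ) ^ (a + r + b) = 2 ^ (a + r + b - m) * 2 ^ m := by
      rw [← pow_add, Nat.sub_add_cancel (by omega)]
    unfold Lat.cell cpi fl1
    simp only [if_true, if_neg (one_ne_zero : (1 : Fin 2) ≠ 0)]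
    rw [hτ, hν, ← pow_add, ← pow_add, ← pow_add, q1, q2]
    congr 2
    · field_simp
    · field_simp
  simp only [c1, c2]

end Vale.Agent.P127.U.H881
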