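import Vale.Agent.P127.U.H881.CoreE
import Vale.Agent.P127.U.Mic.Sat

/-!
# P127 / U / H881 : `PSat` (MSTEPC)

The concrete M-step for the deterministic path (`CellD.Pth`) is `U/Mic/Sat.lean` (helper572).
`CoreC`, `CoreD`, `CoreE` contain an independent frame-free version (`core_dig`), for arbitrary
past `D`, late information `Θ`, window `W` and late cell `E` in terms of digits.
-/
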